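import Vale.Agent.P102.Group.Multi
import Vale.Agent.P102.Triple

/-!
P102: a universal gap below perfect linear relations of every order for mixing transformations.
-/

open MeasureTheory Filter Set Topology

namespace Vale.Agent.Results.P102.ParityGap

open scoped Classical in
theorem result.{u, v} :
    (∀ k : ℕ, 2 ≤ k → ∃ δ : ℝ, 0 < δ ∧
      ∀ (Ω : Type u) [MeasurableSpace Ω] (μ : Measure Ω) [IsProbabilityMeasure μ] (T : Ω ≃ᵐ Ω),
        MeasurePreserving T μ μ →
        (∀ A B : Set Ω, MeasurableSet A → MeasurableSet B →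
          Tendsto (fun n : ℤ => μ (A ∩ ((T.toEquiv : Equiv.Perm Ω) ^ n) ⁻¹' B)) cofinite
            (𝓝 (μ A * μ B))) →
        ∀ (G : Type v) [AddCommGroup G] [Fintype G] [MeasurableSpace G] [MeasurableSingletonClass G]
          (g : Fin k → Ω → G) (c : G), (∀ i, Measurable (g i)) →
          ∃ N : ℕ, ∀ t : Fin k → ℤ, (∀ i j, i ≠ j → (N : ℤ) ≤ |t i - t j|) → ∀ i, ∃ w : G,
            δ * μ.real {x | g i x ≠ w} ≤
              μ.real {x | ∑ j, g j (((T.toEquiv : Equiv.Perm Ω) ^ t j) x) ≠ c}) ∧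
    (∃ c : ℝ, 0 < c ∧
      ∀ (Ω : Type u) [MeasurableSpace Ω] (μ : Measure Ω) [IsProbabilityMeasure μ] (T : Ω ≃ᵐ Ω),
        MeasurePreserving T μ μ →
        (∀ A B : Set Ω, MeasurableSet A → MeasurableSet B →
          Tendsto (fun n : ℤ => μ (A ∩ ((T.toEquiv : Equiv.Perm Ω) ^ n) ⁻¹' B)) cofinite
            (𝓝 (μ A * μ B))) →
        ∀ A : Fin 3 → Set Ω, (∀ i, MeasurableSet (A i)) → (∀ i, μ.real (A i) = 1 / 2) →
          ∃ N : ℕ, ∀ t : Fin 3 → ℤ, (∀ i j, i ≠ j → (N : ℤ) ≤ |t i - t j|) →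
            μ.real (((T.toEquiv : Equiv.Perm Ω) ^ t 0) ⁻¹' A 0 ∩
              ((T.toEquiv : Equiv.Perm Ω) ^ t 1) ⁻¹' A 1 ∩
              ((T.toEquiv : Equiv.Perm Ω) ^ t 2) ⁻¹' A 2) ∈ Icc c (1 / 4 - c)) := by
  refine ⟨fun k hk => ⟨1 / (8 * k.factorial * Vale.P102.Grp.C k.factorial), ?_,
      fun Ω _ μ _ T hT hmix G _ _ _ _ g c hg => ?_⟩,
    ⟨1 / (3072 * Vale.P102.C 6), ?_, fun Ω _ μ _ T hT hmix A hA hh =>
      Vale.P102.triple_bound hT hmix hA hh⟩⟩
  · have := Vale.P102.Grp.C_pos (k := k.factorial)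
      ((Nat.factorial_le hk : (2).factorial ≤ k.factorial))
    have := k.factorial_pos
    positivity
  · choose w _ hw using fun i : Fin k => Finset.exists_min_image Finset.univ
      (fun v : G => μ.real {x | g i x ≠ v}) Finset.univ_nonempty
    choose N hN using fun i => Vale.P102.Grp.defect_bound_multi hT hmix hk c hg i
      (fun v => hw i v (Finset.mem_univ v))
    refine ⟨Finset.univ.sup N, fun t ht i => ⟨w i, hN i t fun a b hab => ?_⟩⟩
    exact le_trans (by exact_mod_cast Finset.le_sup (f := N) (Finset.mem_univ i)) (ht a b hab)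
  · have := Vale.P102.C_pos (k := 6) (by norm_num)
    positivity

end Vale.Agent.Results.P102.ParityGap
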